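import Vale.Agent.P207.Bridge
import Vale.Agent.P207.R2.H327.Gap
import Vale.Agent.P207.R2.H797.DefsB
import Vale.Agent.P207.R2.H797.Crit

/-!
# P207: cones of metrics around the conformal directions

`M` is a closed connected smooth manifold of dimension `n ≥ 2`, `g₀, g₁` are smooth metrics,
`U(x)` is the average of `|v|_{g₁}` over the `g₀`-unit vectors `v` at `x`, and
`q(g₀,g₁) = A(g₀,g₁) A(g₁,g₀)`. The theorem gives exact formulas for the volume and the Liouville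
averages of two arbitrary metrics; a bound of `q(g₀,g₁)` which is quadratic in the pointwise
distance `δ` of `g₁` from the conformal class of `g₀`; and Katok's strict inequality
`h_L(g₁) < h_top(g₁)`, for negatively curved `g₁`, when this bound is less than one and `g₀` is a
negatively curved metric with `h_L = h_top`, for instance locally symmetric. In particular this
holds on a cone of directions around each conformal direction at `g₀` which is open in the
`C⁰`-topology. The last part is a cone in the mean square, without nearness to `g₀`: the strict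
inequality holds whenever the conformal part `U - A` of `f - A`, `f(v) = |v|_{g₁}`, dominates the
orthogonal part `f - U` in `L²` of the Liouville measure.
-/

open scoped Manifold ContDiff ENNReal
open MeasureTheory Set

noncomputable section

namespace Vale.Agent.Results.P207.ConformalCones

open Vale.Agent.P255 (RMetric)
open Vale.Agent.P207F
open Vale.Agent.P207F.Cones
open Vale.Agent.P207.R2

theorem result (n : ℕ) (hn : 2 ≤ n) (M : Type) [TopologicalSpace M] [CompactSpace M] [T2Space M]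
    [ConnectedSpace M] [ChartedSpace (EV n) M] [IsManifold 𝓘(ℝ, EV n) ∞ M] [MeasurableSpace M]
    [BorelSpace M] :
    (∀ g : RMetric (EV n) M, WellDefined (stdB n) g) ∧
    (∀ g₀ g₁ : RMetric (EV n) M, Formulas (stdB n) g₀ g₁) ∧
    (∀ g₀ g₁ : RMetric (EV n) M, Quadratic (stdB n) g₀ g₁) ∧
    (∀ g₀ : RMetric (EV n) M, NegCurvature g₀ → LocSymmetric g₀ →
      hLiou (stdB n) g₀ = hTop g₀) ∧
    ∀ g₀ : RMetric (EV n) M, NegCurvature g₀ → hLiou (stdB n) g₀ = hTop g₀ →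
      (∀ (g₁ : RMetric (EV n) M) (δ : ℝ), NegCurvature g₁ → Dilated g₀ g₁ δ →
        evenPart n δ * evenPart (n + 1) δ * ratio (stdB n) g₀ g₁ < 1 →
        Strict (stdB n) g₁ (evenPart n δ * evenPart (n + 1) δ * ratio (stdB n) g₀ g₁)) ∧
      (∀ w : M → ℝ, Continuous w → (∃ x y, w x ≠ w y) →
        ∃ η t₀ κ : ℝ, Cone (stdB n) g₀ w η t₀ κ) ∧
      ∀ (g₁ : RMetric (EV n) M) (H : ℝ), NegCurvature g₁ → ConformalDominates (stdB n) g₀ g₁ H →
        Near.prodLen (stdB n) g₀ g₁ < 1 ∧ Strict (stdB n) g₁ (Near.prodLen (stdB n) g₀ g₁) := by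
  have hW := fun g : RMetric (EV n) M => wellDefined hn g
  have hφ := fun g : RMetric (EV n) M => ((hW g).1 _).2 rfl
  have hμ := fun g : RMetric (EV n) M => ((hW g).2.1 _).2 rfl
  have hm := fun g : RMetric (EV n) M => ((hW g).2.2 _).2 rfl
  have hn1 : 1 ≤ n := by omega
  have hquad : ∀ g₀ g₁ : RMetric (EV n) M, Quadratic (stdB n) g₀ g₁ := by
    intro g₀ g₁
    refine ⟨fun δ h => H797.prod_le hn h.1 h.2.1 h.2.2 (hμ g₀) (hμ g₁) (hm g₀) (hm g₁),
      fun hne => ?_⟩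
    exact H797.ratio_lt hn hne (hμ g₀) (hm g₀)
  have hstrict : ∀ (g₀ g₁ : RMetric (EV n) M) (q : ℝ), NegCurvature g₀ → NegCurvature g₁ →
      hLiou (stdB n) g₀ = hTop g₀ →
      (∫ p, nrm g₀ g₁ p ∂liou (stdB n) g₀) * (∫ p, nrm g₁ g₀ p ∂liou (stdB n) g₁) ≤ q → q < 1 →
      Strict (stdB n) g₁ q := by
    intro g₀ g₁ q hN₀ hN₁ e₀ h1 h2
    have h3 := H327.gap hn1 hN₀ hN₁ (hφ g₀) (hφ g₁) (hμ g₀) (hμ g₁) (hm g₀) (hm g₁) e₀
    have h4 := h3.trans (mul_le_mul_left (ENNReal.ofReal_le_ofReal h1) _)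
    exact ⟨h4, H327.lt_of_gap hn hN₁ (hφ g₁) (hμ g₁) (hm g₁) h2 h4⟩
  refine ⟨hW, fun g₀ g₁ => ?_, hquad, ?_, fun g₀ hN₀ e₀ => ⟨fun g₁ δ hN₁ hδ hq => ?_,
    fun w hw hne => ?_, fun g₁ H hN₁ hc => ?_⟩⟩
  · exact ⟨fun f => H797.integral_second hn1 g₀ g₁ (hμ g₀) (hμ g₁) f,
      H797.mean_formula hn1 g₀ g₁ (hμ g₀) (hμ g₁) (hm g₀) (hm g₁)⟩
  · intro g₀ hN₀ hL
    exact P207.ksEntropy_eq_of_locSymmetric hn (hφ g₀) (hμ g₀) (hm g₀) hN₀ hL
  · exact hstrict g₀ g₁ _ hN₀ hN₁ e₀ ((hquad g₀ g₁).1 δ hδ) hq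
  · obtain ⟨η, t₀, κ, hη, ht₀, hκ, hκt, h⟩ := H797.cone hn g₀ hw hne (hμ g₀) (hm g₀)
    refine ⟨η, t₀, κ, hη, ht₀, hκ, hκt, fun g₁ t hN₁ ht htt hc => ?_⟩
    refine hstrict g₀ g₁ _ hN₀ hN₁ e₀ (h g₁ _ _ t ht htt hc (hμ g₁) (hm g₁)) ?_
    have h1 : 0 < κ * t ^ 2 := by positivity
    linarith
  · have h1 := H797.prod_lt_one hn hc.1 hc.2.1 (hμ g₀) (hμ g₁) (hm g₀) (hm g₁) hc.2.2
    exact ⟨h1, hstrict g₀ g₁ _ hN₀ hN₁ e₀ le_rfl h1⟩

end Vale.Agent.Results.P207.ConformalCones
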