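import Vale.Agent.P207.Bridge
import Vale.Agent.P207.R2.H327.Defs
import Vale.Agent.P207.R2.H327.Sep

/-!
# P207: C⁰-neighbourhoods of the conformal class and of the Kähler class of a locally symmetric
metric

`M` is a closed connected smooth manifold of dimension `n ≥ 2`. With `A(g₀,g) = ∫ |v|_g dm(v)`, `m`
the Liouville measure of `g₀`, and `q(g₀,g) = A(g₀,g) A(g,g₀)`: if `a² g ≤ g₁ ≤ b² g` then
`q(g₀,g₁) ≤ (b/a)^n q(g₀,g)`; `q(g₀,g) < 1` for every metric `g` conformal to `g₀`, for every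
Kähler metric `g` whose Kähler class is proportional to that of the Kähler metric `g₀`, and for
every `g` with `B(g₀,g) B(g,g₀) ≤ 1`, `B(g₀,g) = ∫ |v|²_g dm(v)`, except for the multiples of `g₀`;
and `h_L(g₀) h_L(g₁) ≤ q(g₀,g₁) h_top(g₀) h_top(g₁)` for all negatively
curved `g₀, g₁`. So if `g₀` is a negatively curved locally symmetric metric and `g` is such a
metric, all negatively curved `g₁` in an explicit `C⁰`-neighbourhood of `g` satisfy
`h_L(g₁) < h_top(g₁)`, with an explicit gap, and are not locally symmetric; on a neighbourhood of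
`g` the entropy of `g₀`, rescaled by `l = (Vol(g) / Vol(g₀))^{1/n}` (conformal class), `l = √c`
(Kähler classes `[ω] = c [ω₀]`) or `l = √B(g₀,g)`, separates the two entropies:
`h_L(g₁) < h_top(g₀) / l < h_top(g₁)`.
-/

open scoped Manifold ContDiff ENNReal
open MeasureTheory Set

noncomputable section

namespace Vale.Agent.Results.P207.OpenClasses

open Vale.Agent.P255 (RMetric)
open Vale.Agent.P207F
open Vale.Agent.P207F.Near
open Vale.Agent.P207.R2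

theorem result (n : ℕ) (hn : 2 ≤ n) (M : Type) [TopologicalSpace M] [CompactSpace M] [T2Space M]
    [ConnectedSpace M] [ChartedSpace (EV n) M] [IsManifold 𝓘(ℝ, EV n) ∞ M] [MeasurableSpace M]
    [BorelSpace M] :
    (∀ g : RMetric (EV n) M, WellDefined (stdB n) g) ∧
    (∀ g₀ g g₁ : RMetric (EV n) M, Control (stdB n) g₀ g g₁) ∧
    (∀ g₀ g : RMetric (EV n) M, ConfFormula (stdB n) g₀ g) ∧
    (∀ (g₀ g : RMetric (EV n) M) (l : ℝ), InClass (stdB n) g₀ g l → Short (stdB n) g₀ g l) ∧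
    (∀ g₀ g₁ : RMetric (EV n) M, NegCurvature g₀ → NegCurvature g₁ →
      EntropyBound (stdB n) g₀ g₁) ∧
    (∀ g₀ : RMetric (EV n) M, NegCurvature g₀ → LocSymmetric g₀ →
      hLiou (stdB n) g₀ = hTop g₀) ∧
    ∀ g₀ g : RMetric (EV n) M, NegCurvature g₀ → hLiou (stdB n) g₀ = hTop g₀ →
      (∀ g₁ : RMetric (EV n) M, NegCurvature g₁ → Gap (stdB n) g₀ g g₁) ∧
      ∀ l : ℝ, InClass (stdB n) g₀ g l → ∃ ε : ℝ, 0 < ε ∧ ∀ g₁ : RMetric (EV n) M,
        NegCurvature g₁ → C0Close g g₁ ε → Separated (stdB n) g₀ g₁ l := by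
  have hW := fun g : RMetric (EV n) M => wellDefined hn g
  have hφ := fun g : RMetric (EV n) M => ((hW g).1 _).2 rfl
  have hμ := fun g : RMetric (EV n) M => ((hW g).2.1 _).2 rfl
  have hm := fun g : RMetric (EV n) M => ((hW g).2.2 _).2 rfl
  have hn1 : 1 ≤ n := by omega
  have hcomp : ∀ g₀ g g₁ : RMetric (EV n) M, Control (stdB n) g₀ g g₁ := by
    intro g₀ g g₁ a b ha hb h
    exact ⟨H327.mean_le_two g₀ hb h (hm g₀).1,
      H327.mean_le_sharp hn1 g₀ ha hb h (hμ g) (hμ g₁) (hm g) (hm g₁),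
      H327.mul_mean_le_sharp (g₀ := g₀) hn1 ha hb h (hm g₀).1 (hμ g) (hμ g₁) (hm g) (hm g₁)⟩
  have hA0 : ∀ g₀ g : RMetric (EV n) M, 0 ≤ meanLen (stdB n) g₀ g :=
    fun g₀ g => integral_nonneg fun p => Real.sqrt_nonneg _
  have hcls : ∀ (g₀ g : RMetric (EV n) M) (l : ℝ), InClass (stdB n) g₀ g l →
      Short (stdB n) g₀ g l := by
    intro g₀ g l hcl
    have h3 : 0 < l ∧ meanLen (stdB n) g₀ g < l ∧ meanLen (stdB n) g g₀ < l⁻¹ := by
      rcases hcl with ⟨⟨u, hu, hne, h⟩, hl⟩ | ⟨J, c, hK₀, hK, hc, hne, rfl⟩ | ⟨hB, hne, rfl⟩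
      · have hV₀ : 0 < (vol (stdB n) g₀).real univ := P207.IsLiouville.vol_pos (hm g₀)
        have hV : 0 < (vol (stdB n) g).real univ := P207.IsLiouville.vol_pos (hm g)
        have hl0 : 0 < l := by
          rw [hl]
          exact Real.rpow_pos_of_pos (div_pos hV hV₀) _
        have hln : l ^ n = (vol (stdB n) g).real univ / (vol (stdB n) g₀).real univ := by
          rw [hl]
          exact Real.rpow_inv_natCast_pow (div_pos hV hV₀).le (by omega)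
        have h4 := H327.mean_conf_lt_scale_two hn hu h hne (hμ g₀) (hμ g) (hm g₀) (hm g) hl0
          (by rw [hln, div_mul_cancel₀ _ hV₀.ne'])
        exact ⟨hl0, h4⟩
      · exact H327.mean_kaehler_lt_scale_two hn1 (hφ g₀) (hφ g) (hμ g₀) (hμ g) (hm g₀) (hm g)
          hK₀ hK hc hne
      · exact H327.mean_sq_lt_scale_two hn1 (hμ g₀) (hμ g) (hm g₀) (hm g) hB hne
    obtain ⟨hl, h1, h2⟩ := h3
    refine ⟨hl, h1, h2, ?_⟩
    calc meanLen (stdB n) g₀ g * meanLen (stdB n) g g₀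
        ≤ l * meanLen (stdB n) g g₀ := mul_le_mul_of_nonneg_right h1.le (hA0 g g₀)
      _ < l * l⁻¹ := mul_lt_mul_of_pos_left h2 hl
      _ = 1 := mul_inv_cancel₀ hl.ne'
  refine ⟨hW, hcomp, ?_, hcls, ?_, ?_,
    fun g₀ g hN₀ e₀ => ⟨fun g₁ hN₁ => ?_, fun l hcl => ?_⟩⟩
  · intro g₀ g u hu h
    obtain ⟨h1, h2⟩ := H327.mean_conf hn1 hu h (hμ g₀) (hμ g) (hm g₀) (hm g)
    have h3 : ∀ x, Real.exp ((n - 1) * u x) = Real.exp (u x) ^ (n - 1) := by
      intro x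
      rw [← Real.exp_nat_mul, Nat.cast_sub hn1, Nat.cast_one]
    have h4 : ∀ x, Real.exp (n * u x) = Real.exp (u x) ^ n := by
      intro x
      rw [← Real.exp_nat_mul]
    simp only [h3, h4]
    refine (congrArg₂ (fun s t : ℝ => s * t) h1 h2).trans ?_
    exact div_mul_div_comm _ _ _ _
  · intro g₀ g₁ hN₀ hN₁
    obtain ⟨hS₀, hA₀, -⟩ := P207.compare hn1 hN₀ hN₁ (hφ g₀) (hφ g₁) (hμ g₀) (hm g₀)
    obtain ⟨hS₁, hA₁, -⟩ := P207.compare hn1 hN₁ hN₀ (hφ g₁) (hφ g₀) (hμ g₁) (hm g₁)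
    refine (mul_le_mul' hS₀ hS₁).trans_eq ((mul_mul_mul_comm _ _ _ _).trans ?_)
    exact congrArg₂ (fun s t => s * t) (ENNReal.ofReal_mul hA₀.le).symm (mul_comm _ _)
  · intro g₀ hN₀ hL
    exact P207.ksEntropy_eq_of_locSymmetric hn (hφ g₀) (hμ g₀) (hm g₀) hN₀ hL
  · intro a b ha hb h hq
    have h1 := H327.gap hn1 hN₀ hN₁ (hφ g₀) (hφ g₁) (hμ g₀) (hμ g₁) (hm g₀) (hm g₁) e₀
    have h2 := h1.trans
      (mul_le_mul_left (ENNReal.ofReal_le_ofReal (hcomp g₀ g g₁ a b ha hb h).2.2) _)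
    exact ⟨h2, H327.lt_of_gap hn hN₁ (hφ g₁) (hμ g₁) (hm g₁) hq h2⟩
  · obtain ⟨hl, h1, h2, -⟩ := hcls g₀ g l hcl
    obtain ⟨ε, hε, hε1, hq1, hq2⟩ := H327.exists_eps_two h1 h2 n
    refine ⟨ε, hε, fun g₁ hN₁ hc => ?_⟩
    have ha : 0 < Real.sqrt (1 - ε) := Real.sqrt_pos.2 (by linarith)
    have hb : 0 < Real.sqrt (1 + ε) := Real.sqrt_pos.2 (by linarith)
    have hbt : Between g g₁ (Real.sqrt (1 - ε)) (Real.sqrt (1 + ε)) := by
      intro x v
      rw [Real.sq_sqrt (by linarith), Real.sq_sqrt (by linarith)]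
      exact hc x v
    obtain ⟨h3, h4, -⟩ := hcomp g₀ g g₁ _ _ ha hb hbt
    obtain ⟨h5, h6, h7⟩ := H327.separation hn hN₀ hN₁ (hφ g₀) (hφ g₁) (hμ g₀) (hμ g₁) (hm g₀)
      (hm g₁) e₀ hl (h3.trans_lt hq1) (h4.trans_lt hq2)
    exact ⟨h5, h6, lt_of_mul_lt_mul_left' (h5.trans h6), h7⟩

end Vale.Agent.Results.P207.OpenClasses
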