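import Vale.Agent.P207.H226.Maps

/-!
# P207: Katok's entropy rigidity by comparison with a second metric

`M` is a closed connected smooth manifold of dimension `n ≥ 3`, `g₀` and `g₁` are metrics of
strictly negative sectional curvature. The entropies of `g₁` are compared by means of the Liouville
entropy of `g₀`, the mean `g₁`-length of the `g₀`-unit vectors (or of their images under a `C¹` map
homotopic to the identity) and the mean Ricci curvature of `g₁`; if `-b² ≤ K ≤ -a²` for `g₀`, by means of the two mean lengths.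
-/

open scoped Manifold ContDiff ENNReal
open MeasureTheory

noncomputable section

namespace Vale.Agent.Results.P207.RicciComparison

open Vale.Agent.P255 (RMetric)
open Vale.Agent.P207F

theorem result (n : ℕ) (hn : 3 ≤ n) (M : Type) [TopologicalSpace M] [CompactSpace M] [T2Space M]
    [ConnectedSpace M] [ChartedSpace (EV n) M] [IsManifold 𝓘(ℝ, EV n) ∞ M] [MeasurableSpace M]
    [BorelSpace M] :
    (∀ g : RMetric (EV n) M, WellDefined (stdB n) g) ∧
    ∀ g₀ g₁ : RMetric (EV n) M, NegCurvature g₀ → NegCurvature g₁ →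
      RicciCase (stdB n) g₀ g₁ (negRic g₁) ∧ RicciMapCase (stdB n) g₀ g₁ (negRic g₁) ∧
        PinchedCase (stdB n) g₀ g₁ := by
  have hn2 : 2 ≤ n := by omega
  have hn1 : 1 ≤ n := by omega
  have hW := fun g : RMetric (EV n) M => wellDefined hn2 g
  refine ⟨hW, ?_⟩
  intro g₀ g₁ hN₀ hN₁
  have hφ₀ := ((hW g₀).1 _).2 rfl
  have hφ₁ := ((hW g₁).1 _).2 rfl
  have hμ₀ := ((hW g₀).2.1 _).2 rfl
  have hμ₁ := ((hW g₁).2.1 _).2 rfl
  have hm₀ := ((hW g₀).2.2 _).2 rfl
  have hm₁ := ((hW g₁).2.2 _).2 rfl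
  have hfin : hLiou (stdB n) g₀ ≠ ⊤ := (P207.compare hn1 hN₀ hN₀ hφ₀ hφ₀ hμ₀ hm₀).2.2
  refine ⟨⟨hfin, fun a ha hK => ?_, ?_, fun h => ?_, fun h => ?_⟩,
    R226.ricciMapCase hn hN₀ hN₁, fun a b ha hb hK hK' => ?_⟩
  · exact (ENNReal.ofReal_le_iff_le_toReal hfin).1 (P207.H226.low hn hN₀ ha hK hφ₀ hμ₀ hm₀)
  · exact P207.H226.mul_le hn hN₀ hN₁ hφ₀ hφ₁ hμ₀ hμ₁ hm₀ hm₁
  · exact P207.H226.gap hn hN₀ hN₁ hφ₀ hφ₁ hμ₀ hμ₁ hm₀ hm₁ h
  · have key := P207.H226.rigid hn hN₀ hN₁ hφ₀ hφ₁ hμ₀ hμ₁ hm₀ hm₁ h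
    have hsym : LocSymmetric g₁ → hLiou (stdB n) g₁ = hTop g₁ := fun hs =>
      P207.ksEntropy_eq_of_locSymmetric hn2 hφ₁ hμ₁ hm₁ hN₁ hs
    refine ⟨⟨fun e => ?_, hsym⟩, ⟨fun e => key e, fun hc => ?_⟩⟩
    · obtain ⟨-, κ, -, hκ⟩ := key e
      exact P207.H226.locSymmetric_of_constCurvature hκ
    · obtain ⟨-, κ, -, hκ⟩ := hc
      exact hsym (P207.H226.locSymmetric_of_constCurvature hκ)
  · have key := P207.H226.le_mul_pinched hn hN₀ hN₁ hφ₀ hφ₁ hμ₀ hμ₁ hm₀ hm₁ ha hb hK hK'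
    have hlt : meanLen (stdB n) g₀ g₁ * meanLen (stdB n) g₁ g₀ < a / b →
        EntropyGap (stdB n) g₁ :=
      fun h => by
        refine P207.H226.lt_of_le_mul hn2 hN₁ hφ₁ hμ₁ hm₁ ?_ key
        have h1 := mul_lt_mul_of_pos_right h (div_pos hb ha)
        rwa [div_mul_div_comm, mul_comm b a, div_self (mul_pos ha hb).ne'] at h1
    refine ⟨key, hlt, fun u hu hc h => hlt ?_⟩
    have e0 : expInt (stdB n) g₀ u 0 = (vol (stdB n) g₀).real Set.univ := by
      simp [expInt]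
    have e1 : expInt (stdB n) g₀ u 1 = ∫ x, Real.exp (u x) ∂(vol (stdB n) g₀) := by
      simp [expInt]
    have h1 : meanLen (stdB n) g₀ g₁ = expInt (stdB n) g₀ u 1 / expInt (stdB n) g₀ u 0 := by
      rw [e0, e1]
      exact P207.Conf.integral_nrm hn1 hu hc hm₀
    have h2 : meanLen (stdB n) g₁ g₀ = expInt (stdB n) g₀ u (n - 1) / expInt (stdB n) g₀ u n :=
      P207.Conf.integral_nrm' hn1 hu hc hμ₀ hμ₁ hm₁
    have hpos : 0 < expInt (stdB n) g₀ u 0 * expInt (stdB n) g₀ u n := by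
      have hμ' : P207.IsRiemVol g₀ (vol (stdB n) g₀) := hμ₀
      have h3 := hμ'.isFiniteMeasure
      have h4 := hμ'.isOpenPosMeasure
      have h5 : 0 < (vol (stdB n) g₀).real Set.univ :=
        ENNReal.toReal_pos (isOpen_univ.measure_pos _ Set.univ_nonempty).ne' (measure_ne_top _ _)
      have hcont : Continuous fun x => Real.exp (n * u x) :=
        Real.continuous_exp.comp (continuous_const.mul hu)
      rw [e0]
      refine mul_pos h5 ?_
      exact hcont.integral_pos_of_hasCompactSupport_nonneg_nonzero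
        (HasCompactSupport.of_compactSpace _) (fun x => (Real.exp_pos _).le)
        (x := Classical.arbitrary M) (Real.exp_pos _).ne'
    rw [h1, h2, div_mul_div_comm, div_lt_div_iff₀ hpos hb]
    linarith

end Vale.Agent.Results.P207.RicciComparison
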