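import Vale.Agent.P207.R2.H193.Top

/-!
# P207: entropy rigidity and maps homotopic to the identity

`M` is a closed connected smooth manifold of dimension `n ≥ 2`, `g₀, g₁` are metrics of strictly
negative sectional curvature. A test map from `g₀` to `g₁` is a map from the unit tangent bundle of
`g₀` to `M`, homotopic to the base point projection, which is differentiable along the geodesic
flow of `g₀`, the `g₁`-length of its velocity being at most `w`; for instance `v ↦ f (x)`,
`v ∈ T_x M`, with `f : M → M` of class `C¹` and homotopic to the identity, and `w (v) = |df (v)|`.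
The averages of `w` (Liouville measure of `g₀`) bound the Liouville entropy of `g₀` by the
topological entropy of `g₁`; used in both directions they bound the quotient of the two entropies
of `g₁` if they agree for `g₀`, and settle Katok's question for `g₁` if the product of the two
averages is less than `1` and `g₀` is locally symmetric.
-/

open scoped Manifold ContDiff ENNReal Topology unitInterval

noncomputable section

namespace Vale.Agent.Results.P207.TestMaps

open Vale.Agent.P255 (RMetric)
open Vale.Agent.P207F Vale.Agent.P207T

theorem result (n : ℕ) (hn : 2 ≤ n) (M : Type) [TopologicalSpace M] [CompactSpace M] [T2Space M]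
    [ConnectedSpace M] [ChartedSpace (EV n) M] [IsManifold 𝓘(ℝ, EV n) ∞ M] [MeasurableSpace M]
    [BorelSpace M] :
    (∀ g : RMetric (EV n) M, WellDefined (stdB n) g) ∧
    ∀ g₀ g₁ : RMetric (EV n) M, NegCurvature g₀ → NegCurvature g₁ →
      TestCase (stdB n) g₀ g₁ ∧ MapCase (stdB n) g₀ g₁ := by
  refine ⟨fun g => wellDefined hn g, fun g₀ g₁ hN₀ hN₁ => ⟨fun F w h => ⟨test_le hn hN₀ hN₁ h,
    fun F' w' h' => ⟨defect_le hn hN₀ hN₁ h h', strict_of_sym hn hN₀ hN₁ h h'⟩⟩,
    fun f h => ⟨isTestMap_of_map hn h, fun f' h' => ⟨energy_ge hn hN₀ hN₁ h h',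
      strict_of_maps hn hN₀ hN₁ h h'⟩⟩⟩⟩

end Vale.Agent.Results.P207.TestMaps
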